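import Vale.Agent.P181.GN.H674.Det

set_option autoImplicit false

/-!
# P181, GN, Q2: the construction of `F` from `F_1`
-/

open MvPolynomial

namespace Vale.Agent.P181.GN.H674

variable {k : ℕ}

/-- An additive grade. -/
def gr (g : Lt k → ℕ) (v : Lt k →₀ ℕ) : ℕ := v.sum fun p n => n * g p

lemma gr_add (g : Lt k → ℕ) (u v : Lt k →₀ ℕ) : gr g (u + v) = gr g u + gr g v := by
  classical
  exact Finsupp.sum_add_index' (fun _ => Nat.zero_mul _) (fun _ _ _ => Nat.add_mul _ _ _)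

lemma gr_single (g : Lt k → ℕ) (p : Lt k) (n : ℕ) : gr g (Finsupp.single p n) = n * g p :=
  Finsupp.sum_single_index (Nat.zero_mul _)

lemma ln_eq (v : Lt k →₀ ℕ) : ln v = gr (fun _ => 1) v := by
  simp [ln, gr]

lemma xs_eq (v : Lt k →₀ ℕ) : xs v = gr Prod.fst v := rfl

lemma us_eq (v : Lt k →₀ ℕ) (i : Fin k) : us v i = gr (fun p => p.2 i) v := rfl

/-- The degree below row one in the letters of size at least two. -/
def du (v : Lt k →₀ ℕ) : ℕ := gr (fun p => if sz p ≤ 1 then 0 else ∑ i, p.2 i) v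

lemma du_le (v : Lt k →₀ ℕ) : du v ≤ ∑ i, us v i := by
  have h1 : ∑ i, us v i = gr (fun p => ∑ i, p.2 i) v := by
    unfold us gr
    simp only [Finsupp.sum, Finset.mul_sum]
    rw [Finset.sum_comm]
  rw [h1]
  unfold du gr
  apply Finset.sum_le_sum
  intro p _
  apply Nat.mul_le_mul_left
  dsimp only
  split_ifs
  · exact Nat.zero_le _
  · exact le_refl _

lemma TE_supp (i : Fin k) (G : Po k) (v : Lt k →₀ ℕ) (h : coeff v (TE i G) ≠ 0) :
    ∃ u p, coeff u G ≠ 0 ∧ p ∈ u.support ∧ ¬ sz p ≤ 1 ∧ p.2 i ≠ 0 ∧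
      v + Finsupp.single p 1 = u + Finsupp.single (p.1 + 1, p.2 - Pi.single i 1) 1 := by
  obtain ⟨u, p, hu, hp, hq, h1⟩ := lo_supp _ _ _ _ h
  have h2 : ¬ sz p ≤ 1 := fun h2 => hq (if_pos h2)
  refine ⟨u, p, hu, hp, h2, ?_, h1⟩
  intro h3
  apply hq
  rw [if_neg h2, h3, Nat.cast_zero]

lemma TE_du (i : Fin k) (G : Po k) (v : Lt k →₀ ℕ) (h : coeff v (TE i G) ≠ 0) :
    ∃ u, coeff u G ≠ 0 ∧ du u = du v + 1 := by
  obtain ⟨u, p, hu, _, hp, hi, h1⟩ := TE_supp i G v h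
  refine ⟨u, hu, ?_⟩
  have h2 := congrArg du h1
  unfold du at h2 ⊢
  rw [gr_add, gr_add, gr_single, gr_single, if_neg hp, if_neg (by rw [sz_up p i hi]; exact hp)] at h2
  have h3 := sum_sub p.2 i hi
  dsimp only at h2
  omega

/-- The monomials of `NN G`. -/
lemma NN_supp (G : Po k) (v : Lt k →₀ ℕ) (h : coeff v (NN G) ≠ 0) :
    ∃ u, coeff u G ≠ 0 ∧ du u = du v + 1 ∧ ln v = ln u + 1 ∧ xs v = xs u + 1 ∧
      (∀ i, us v i = us u i) ∧
      ((∀ p ∈ u.support, 1 ≤ sz p) → ∀ p ∈ v.support, 1 ≤ sz p) := by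
  classical
  rw [NN_apply, coeff_sum] at h
  obtain ⟨i, _, h1⟩ := Finset.exists_ne_zero_of_sum_ne_zero h
  rw [mul_comm, coeff_mul_X'] at h1
  have h2 : xi i ∈ v.support := by
    by_contra h2
    exact h1 (if_neg h2)
  rw [if_pos h2] at h1
  obtain ⟨u, p, hu, hp', hp, hi, h3⟩ := TE_supp i G _ h1
  have h4 : v = (v - Finsupp.single (xi i) 1) + Finsupp.single (xi i) 1 := by
    rw [tsub_add_cancel_of_le]
    rw [Finsupp.single_le_iff]
    exact Nat.one_le_iff_ne_zero.2 (Finsupp.mem_support_iff.1 h2)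
  set v' := v - Finsupp.single (xi i) 1 with hv'
  have hg : ∀ g : Lt k → ℕ, gr g v + g p = gr g u + g (p.1 + 1, p.2 - Pi.single i 1) +
      g (xi i) := by
    intro g
    have h5 := congrArg (gr g) h3
    rw [gr_add, gr_add, gr_single, gr_single, one_mul, one_mul] at h5
    have h6 : gr g v = gr g v' + g (xi i) := by
      rw [h4, gr_add, gr_single, one_mul]
    omega
  refine ⟨u, hu, ?_, ?_, ?_, ?_, ?_⟩
  · have h5 := hg (fun p => if sz p ≤ 1 then 0 else ∑ i, p.2 i)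
    dsimp only at h5
    rw [if_neg hp, if_neg (by rw [sz_up p i hi]; exact hp), if_pos (le_of_eq (sz_xi i))] at h5
    have h6 := sum_sub p.2 i hi
    unfold du
    omega
  · have h5 := hg (fun _ => 1)
    rw [ln_eq, ln_eq]
    omega
  · have h5 := hg Prod.fst
    have h6 : (xi i : Lt k).1 = 0 := rfl
    rw [h6] at h5
    rw [xs_eq, xs_eq]
    dsimp only at h5
    omega
  · intro j
    have h5 := hg (fun p => p.2 j)
    rw [us_eq, us_eq]
    have h6 : ((xi i : Lt k).2 j) = if j = i then 1 else 0 := by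
      simp only [xi, Pi.single_apply]
    have h7 : ((p.2 - Pi.single i 1 : Fin k → ℕ) j) = p.2 j - (if j = i then 1 else 0) := by
      rw [Pi.sub_apply, Pi.single_apply]
    dsimp only at h5
    rw [h6, h7] at h5
    split_ifs at h5 with h8
    · subst h8
      omega
    · omega
  · intro hs q hq
    rw [h4] at hq
    have h5 := Finsupp.support_add hq
    rw [Finset.mem_union] at h5
    rcases h5 with h5 | h5
    · have h6 : q ∈ (v' + Finsupp.single p 1).support := by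
        rw [Finsupp.mem_support_iff, Finsupp.add_apply]
        have := Finsupp.mem_support_iff.1 h5
        omega
      rw [h3] at h6
      have h7 := Finsupp.support_add h6
      rw [Finset.mem_union] at h7
      rcases h7 with h7 | h7
      · exact hs q h7
      · have h8 := Finsupp.support_single_subset h7
        rw [Finset.mem_singleton] at h8
        rw [h8, sz_up p i hi]
        omega
    · have h8 := Finsupp.support_single_subset h5
      rw [Finset.mem_singleton] at h8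
      rw [h8, sz_xi]

/-- The operator `NN` as an endomorphism. -/
noncomputable def NL : Module.End ℂ (Po k) := (NN (k := k)).toLinearMap

lemma NL_succ (n : ℕ) (G : Po k) : (NL ^ (n + 1)) G = NN ((NL ^ n) G) := by
  rw [pow_succ', Module.End.mul_apply]
  rfl

lemma NL_comm (f : Po k → Po k) (hf : ∀ G, f (NN G) = NN (f G)) (n : ℕ) (G : Po k) :
    f ((NL ^ n) G) = (NL ^ n) (f G) := by
  induction n with
  | zero => rfl
  | succ n ih => rw [NL_succ, NL_succ, hf, ih]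

lemma NL_supp (n : ℕ) (G : Po k) (v : Lt k →₀ ℕ) (h : coeff v ((NL ^ n) G) ≠ 0) :
    ∃ u, coeff u G ≠ 0 ∧ du u = du v + n ∧ ln v = ln u + n ∧ xs v = xs u + n ∧
      (∀ i, us v i = us u i) ∧
      ((∀ p ∈ u.support, 1 ≤ sz p) → ∀ p ∈ v.support, 1 ≤ sz p) := by
  induction n generalizing v with
  | zero => exact ⟨v, h, rfl, rfl, rfl, fun _ => rfl, fun h => h⟩
  | succ n ih =>
    rw [NL_succ] at h
    obtain ⟨u, hu, h1, h2, h3, h4, h5⟩ := NN_supp _ _ h
    obtain ⟨w, hw, g1, g2, g3, g4, g5⟩ := ih u hu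
    refine ⟨w, hw, by omega, by omega, by omega, fun i => by rw [h4, g4], fun h => h5 (g5 h)⟩

lemma pd_NL (i : Fin k) (n : ℕ) (G : Po k) (hG : pderiv (xi i) G = 0) :
    pderiv (xi i) ((NL ^ (n + 1)) G) = ((n + 1 : ℕ) : ℂ) • (NL ^ n) (TE i G) := by
  induction n with
  | zero =>
    rw [NL_succ, pd_NN]
    change NN (pderiv (xi i) G) + TE i G = _
    rw [hG, map_zero, zero_add, zero_add, Nat.cast_one, one_smul]
    rfl
  | succ n ih =>
    rw [NL_succ, pd_NN, ih, Derivation.map_smul, NL_comm (TE i) (TE_NN i), ← NL_succ]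
    have h1 : ((n + 1 + 1 : ℕ) : ℂ) = ((n + 1 : ℕ) : ℂ) + 1 := by push_cast; ring
    rw [h1, add_smul, one_smul]

/-- Homogenization with `xi_1`. -/
noncomputable def Hm (d : ℕ) : Po k →ₗ[ℂ] Po k :=
  (basisMonomials (Lt k) ℂ).constr ℂ fun v => monomial (Finsupp.single x1 (d - ln v) + v) 1

lemma Hm_mono (d : ℕ) (v : Lt k →₀ ℕ) (r : ℂ) :
    Hm d (monomial v r) = monomial (Finsupp.single x1 (d - ln v) + v) r := by
  have h : monomial v r = r • basisMonomials (Lt k) ℂ v := by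
    rw [coe_basisMonomials, smul_monomial, smul_eq_mul, mul_one]
  rw [h, map_smul, Hm, Module.Basis.constr_basis, smul_monomial, smul_eq_mul, mul_one]

lemma Hm_mono' (d : ℕ) (v : Lt k →₀ ℕ) (r : ℂ) :
    Hm d (monomial v r) = X x1 ^ (d - ln v) * monomial v r := by
  rw [Hm_mono, X_pow_eq_monomial, monomial_mul, one_mul]

lemma sum_mono (L : Po k →ₗ[ℂ] Po k) (G : Po k) :
    L G = ∑ v ∈ G.support, L (monomial v (coeff v G)) := by
  conv_lhs => rw [← support_sum_monomial_coeff G]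
  rw [map_sum]

lemma Hm_of (d l : ℕ) (G : Po k) (hG : ∀ v, coeff v G ≠ 0 → ln v = l) :
    Hm d G = X x1 ^ (d - l) * G := by
  rw [sum_mono (Hm d) G]
  conv_rhs => rw [← support_sum_monomial_coeff G]
  rw [Finset.mul_sum]
  refine Finset.sum_congr rfl fun v hv => ?_
  rw [Hm_mono', hG v (mem_support_iff.1 hv)]

lemma lo_ln (q : Lt k → ℂ) (φ : Lt k → Lt k) (G : Po k) (v : Lt k →₀ ℕ)
    (h : coeff v (lo q φ G) ≠ 0) : ∃ u, coeff u G ≠ 0 ∧ ln v = ln u := by
  obtain ⟨u, p, hu, _, _, h1⟩ := lo_supp q φ G v h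
  refine ⟨u, hu, ?_⟩
  have h2 := congrArg ln h1
  rw [ln_eq, ln_eq, gr_add, gr_add, gr_single, gr_single] at h2
  rw [ln_eq, ln_eq]
  omega

lemma Hm_lo (q : Lt k → ℂ) (φ : Lt k → Lt k) (hq : q x1 = 0) (d : ℕ) (G : Po k) :
    Hm d (lo q φ G) = lo q φ (Hm d G) := by
  classical
  induction G using MvPolynomial.induction_on' with
  | monomial v r =>
    rw [Hm_mono', Hm_of d (ln v), Derivation.leibniz, Derivation.leibniz_pow, lo_X, hq, zero_smul,
      smul_zero, smul_zero, smul_zero, add_zero, smul_eq_mul]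
    intro u hu
    obtain ⟨w, hw, h1⟩ := lo_ln q φ _ u hu
    rw [coeff_monomial] at hw
    have h2 : v = w := by
      by_contra h2
      exact hw (if_neg h2)
    rw [h1, h2]
  | add p q hp hq => rw [map_add, map_add, map_add, map_add, hp, hq]

lemma Hm_supp (d : ℕ) (G : Po k) (u : Lt k →₀ ℕ) (h : coeff u (Hm d G) ≠ 0) :
    ∃ v, coeff v G ≠ 0 ∧ u = Finsupp.single x1 (d - ln v) + v := by
  classical
  rw [sum_mono (Hm d) G, coeff_sum] at h
  obtain ⟨v, hv, h1⟩ := Finset.exists_ne_zero_of_sum_ne_zero h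
  rw [Hm_mono, coeff_monomial] at h1
  refine ⟨v, mem_support_iff.1 hv, ?_⟩
  by_contra h2
  exact h1 (if_neg fun h3 => h2 h3.symm)

lemma Hm_succ (d : ℕ) (G : Po k) (hG : ∀ v, coeff v G ≠ 0 → ln v ≤ d) :
    X x1 * Hm d G = Hm (d + 1) G := by
  rw [sum_mono (Hm d) G, sum_mono (Hm (d + 1)) G, Finset.mul_sum]
  refine Finset.sum_congr rfl fun v hv => ?_
  have h1 := hG v (mem_support_iff.1 hv)
  rw [Hm_mono', Hm_mono', Nat.succ_sub h1, pow_succ]
  ring

lemma pd_Hm (i : Fin k) (d : ℕ) (G : Po k) (hG : ∀ v, coeff v G ≠ 0 → v (xi i) = 0) :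
    pderiv (xi i) (Hm d G) = 0 := by
  rw [sum_mono (Hm d) G, map_sum]
  refine Finset.sum_eq_zero fun v hv => ?_
  have h1 := hG v (mem_support_iff.1 hv)
  rw [Hm_mono, pderiv_monomial, Finsupp.add_apply, h1, Finsupp.single_eq_of_ne (xi_ne_x1 i),
    add_zero, Nat.cast_zero, mul_zero, monomial_zero]

lemma sp_Hm (d : ℕ) (G : Po k) (hG : ∀ v, coeff v G ≠ 0 → ∀ p ∈ v.support, 2 ≤ sz p) :
    sp (Hm d G) = G := by
  rw [sum_mono (Hm d) G, map_sum]
  conv_rhs => rw [← support_sum_monomial_coeff G]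
  refine Finset.sum_congr rfl fun v hv => ?_
  have h1 := hG v (mem_support_iff.1 hv)
  rw [Hm_mono', map_mul, map_pow, sp_x1, one_pow, one_mul, sp_mono_of]
  intro p hp
  have := h1 p hp
  omega

/-- The coefficient `(-1)^n / n!`. -/
noncomputable def cf (n : ℕ) : ℂ := (-1) ^ n / (n.factorial : ℂ)

lemma cf_succ (n : ℕ) : cf (n + 1) * ((n + 1 : ℕ) : ℂ) = - cf n := by
  unfold cf
  have h1 : ((n + 1 : ℕ) : ℂ) ≠ 0 := Nat.cast_ne_zero.2 (Nat.succ_ne_zero n)
  have h2 : (n.factorial : ℂ) ≠ 0 := Nat.cast_ne_zero.2 n.factorial_ne_zero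
  rw [Nat.factorial_succ, Nat.cast_mul]
  field_simp
  ring

/-- The polynomial `F` of `F_1`. -/
noncomputable def Fk (t y : ℕ) : Po k →ₗ[ℂ] Po k :=
  ∑ n ∈ Finset.range (t + 1), cf n • ((NL ^ n : Module.End ℂ (Po k)) ∘ₗ Hm (y - n))

lemma Fk_apply (t y : ℕ) (G : Po k) :
    Fk t y G = ∑ n ∈ Finset.range (t + 1), cf n • (NL ^ n) (Hm (y - n) G) := by
  rw [Fk, LinearMap.sum_apply]
  rfl

/-- **(B)** -/
lemma EU_Fk (r i : Fin k) (hri : r ≠ i) (t y : ℕ) (G : Po k) (hG : EU r i G = 0) :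
    EU r i (Fk t y G) = 0 := by
  rw [Fk_apply, map_sum]
  refine Finset.sum_eq_zero fun n _ => ?_
  have h1 : EU r i (Hm (y - n) G) = 0 := by
    have h2 := Hm_lo (fun p : Lt k => (p.2 i : ℂ)) (fun p => (p.1, p.2 - Pi.single i 1 + Pi.single r 1))
      (by simp [x1]) (y - n) G
    have h3 : Hm (y - n) (EU r i G) = EU r i (Hm (y - n) G) := h2
    rw [← h3, hG, map_zero]
  rw [Derivation.map_smul, NL_comm (EU r i) (EU_NN r i hri), h1, map_zero, smul_zero]

/-- **(A)** -/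
lemma E1_Fk (i : Fin k) (t y : ℕ) (G : Po k)
    (hG : ∀ v, coeff v G ≠ 0 → (∀ p ∈ v.support, 2 ≤ sz p) ∧ ln v + t ≤ y ∧ ∑ i, us v i ≤ t) :
    E1 i (Fk t y G) = 0 := by
  have h0 : ∀ d, pderiv (xi i) (Hm d G) = 0 := by
    intro d
    apply pd_Hm
    intro v hv
    by_contra h1
    have h2 := (hG v hv).1 (xi i) (Finsupp.mem_support_iff.2 h1)
    rw [sz_xi] at h2
    omega
  have hA : ∀ n, TE i ((NL ^ n) (Hm (y - n) G)) = (NL ^ n) (TE i (Hm (y - n) G)) :=
    fun n => NL_comm (TE i) (TE_NN i) n _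
  have hB : ∀ n, n < t → cf (n + 1) • (X x1 * pderiv (xi i) ((NL ^ (n + 1)) (Hm (y - (n + 1)) G))) =
      - (cf n • (NL ^ n) (TE i (Hm (y - n) G))) := by
    intro n hn
    rw [pd_NL i n _ (h0 _), mul_smul_comm, smul_smul, cf_succ, neg_smul]
    congr 2
    have h1 : X x1 * (NL ^ n) (TE i (Hm (y - (n + 1)) G)) =
        (NL ^ n) (X x1 * TE i (Hm (y - (n + 1)) G)) := by
      apply NL_comm (fun G => X x1 * G)
      intro G'
      rw [Derivation.leibniz, NN_x1, smul_zero, add_zero, smul_eq_mul]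
    have h2 : X x1 * TE i (Hm (y - (n + 1)) G) = TE i (Hm (y - n) G) := by
      by_cases hG0 : G = 0
      · subst hG0
        simp only [map_zero, mul_zero]
      · obtain ⟨v, hv⟩ := ne_zero_iff.1 hG0
        have h4 := (hG v hv).2.1
        have h5 : y - n = y - (n + 1) + 1 := by omega
        have h3 : X x1 * Hm (y - (n + 1)) G = Hm (y - n) G := by
          rw [h5]
          apply Hm_succ
          intro v hv
          have h4 := (hG v hv).2.1
          omega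
        rw [← h3, Derivation.leibniz, TE_x1, smul_zero, add_zero, smul_eq_mul]
    rw [h1, h2]
  have h1 : E1 i (Fk t y G) = cf t • (NL ^ t) (TE i (Hm (y - t) G)) := by
    rw [Fk_apply, map_sum]
    have h2 : ∀ n ∈ Finset.range (t + 1), E1 i (cf n • (NL ^ n) (Hm (y - n) G)) =
        cf n • (X x1 * pderiv (xi i) ((NL ^ n) (Hm (y - n) G))) +
          cf n • (NL ^ n) (TE i (Hm (y - n) G)) := by
      intro n _
      rw [Derivation.map_smul, E1_split, hA, smul_add]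
    rw [Finset.sum_congr rfl h2, Finset.sum_add_distrib, Finset.sum_range_succ', Finset.sum_range_succ
      (fun n => cf n • (NL ^ n) (TE i (Hm (y - n) G)))]
    rw [Finset.sum_congr rfl fun n hn => hB n (Finset.mem_range.1 hn), Finset.sum_neg_distrib]
    have h3 : pderiv (xi i) ((NL ^ 0) (Hm (y - 0) G)) = 0 := h0 _
    rw [h3, mul_zero, smul_zero, add_zero]
    ring
  rw [h1]
  have h2 : (NL ^ t) (TE i (Hm (y - t) G)) = 0 := by
    by_contra h3
    obtain ⟨v, hv⟩ := ne_zero_iff.1 h3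
    obtain ⟨u, hu, h4, _⟩ := NL_supp t _ v hv
    obtain ⟨w, hw, h5⟩ := TE_du i _ u hu
    obtain ⟨x, hx, h6⟩ := Hm_supp _ _ w hw
    have h7 := (hG x hx).2.2
    have h8 : du w = du x := by
      rw [h6]
      unfold du
      rw [gr_add, gr_single, if_pos (le_of_eq sz_x1), mul_zero, zero_add]
    have h9 := du_le x
    omega
  rw [h2, smul_zero]

/-- **(C)** -/
lemma supp_Fk (t y m0 : ℕ) (tau : Fin k → ℕ) (G : Po k)
    (hG : ∀ v, coeff v G ≠ 0 → gPP tau y m0 v ∧ ln v + t ≤ y) (v : Lt k →₀ ℕ)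
    (hv : coeff v (Fk t y G) ≠ 0) :
    (∀ p ∈ v.support, 1 ≤ sz p) ∧ ln v = y ∧ xs v = m0 ∧ ∀ i, us v i = tau i := by
  rw [Fk_apply, coeff_sum] at hv
  obtain ⟨n, hn, h1⟩ := Finset.exists_ne_zero_of_sum_ne_zero hv
  rw [Finset.mem_range] at hn
  rw [coeff_smul, smul_eq_mul] at h1
  obtain ⟨u, hu, _, h2, h3, h4, h5⟩ := NL_supp n _ v (right_ne_zero_of_mul h1)
  obtain ⟨w, hw, rfl⟩ := Hm_supp _ _ u hu
  obtain ⟨⟨g1, g2, g3⟩, g4⟩ := hG w hw
  have e1 : ln (Finsupp.single x1 (y - n - ln w) + w) = (y - n - ln w) + ln w := by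
    rw [ln_eq, gr_add, gr_single, mul_one, ← ln_eq]
  have e2 : xs (Finsupp.single x1 (y - n - ln w) + w) = (y - n - ln w) + xs w := by
    rw [xs_eq, gr_add, gr_single, xs_eq]
    simp [x1]
  have e3 : ∀ i, us (Finsupp.single x1 (y - n - ln w) + w) i = us w i := by
    intro i
    rw [us_eq, gr_add, gr_single, us_eq]
    simp [x1]
  refine ⟨h5 ?_, by omega, by omega, fun i => by rw [h4, e3, g3]⟩
  intro p hp
  have h6 := Finsupp.support_add hp
  rw [Finset.mem_union] at h6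
  rcases h6 with h6 | h6
  · have h8 := Finsupp.support_single_subset h6
    rw [Finset.mem_singleton] at h8
    rw [h8, sz_x1]
  · have := g1 p h6
    omega

/-- **(E)** -/
lemma sp_Fk (t y : ℕ) (G : Po k) (hG : ∀ v, coeff v G ≠ 0 → ∀ p ∈ v.support, 2 ≤ sz p) :
    sp (Fk t y G) = G := by
  rw [Fk_apply, map_sum, Finset.sum_eq_single 0]
  · rw [map_smul]
    have h1 : (NL ^ 0) (Hm (y - 0) G) = Hm (y - 0) G := rfl
    rw [h1, sp_Hm _ _ hG]
    simp [cf]
  · intro n _ hn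
    obtain ⟨n, rfl⟩ := Nat.exists_eq_succ_of_ne_zero hn
    rw [map_smul, Nat.succ_eq_add_one, NL_succ, NN_apply, map_sum]
    rw [Finset.sum_eq_zero fun i _ => by rw [map_mul, sp_xi, zero_mul], smul_zero]
  · intro h
    exact absurd (Finset.mem_range.2 (Nat.succ_pos t)) h

/-- **(D)** -/
lemma tr_Fk (t y m0 : ℕ) (tau : Fin k → ℕ) (ht : ∑ i, tau i = t) (G : Po k)
    (hG : ∀ v, coeff v G ≠ 0 → gPP tau y m0 v ∧ ln v + t ≤ y)
    (h0 : CD0 G = 0) (h1 : ∀ i, CD i G = 0) :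
    D0 (Fk t y G) = 0 ∧ ∀ i, DD i (Fk t y G) = 0 := by
  have hE : ∀ i, E1 i (Fk t y G) = 0 := by
    intro i
    apply E1_Fk
    intro v hv
    obtain ⟨⟨g1, g2, g3⟩, g4⟩ := hG v hv
    refine ⟨g1, g4, ?_⟩
    rw [Finset.sum_congr rfl fun i _ => g3 i, ht]
  have hy : ∀ v, coeff v (Fk t y G) ≠ 0 → ln v = y := fun v hv => (supp_Fk t y m0 tau G hG v hv).2.1
  have hs : sp (Fk t y G) = G := sp_Fk t y G fun v hv => (hG v hv).1.1
  have hD : ∀ i, DD i (Fk t y G) = 0 := by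
    intro i
    apply det_zero (y := y)
    · intro v hv
      obtain ⟨u, hu, h2⟩ := lo_ln _ _ _ v hv
      rw [h2, hy u hu]
    · intro c
      rw [E1_DD, hE c, map_zero]
    · rw [sp_DD, hs, h1 i]
  refine ⟨?_, hD⟩
  apply det_zero (y := y)
  · intro v hv
    obtain ⟨u, hu, h2⟩ := lo_ln _ _ _ v hv
    rw [h2, hy u hu]
  · intro c
    rw [E1_D0, hE c, map_zero, Derivation.neg_apply, hD c, neg_zero, add_zero]
  · rw [sp_D0, hs, h0]

end Vale.Agent.P181.GN.H674
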