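import Vale.Agent.P181.GN.H674.Let
import Vale.Agent.P181.GN.H674.Mk

set_option autoImplicit false

/-!
# P181, GN, Q2
-/

open MvPolynomial

namespace Vale.Agent.P181.GN.H674

open Vale.Agent.P181.DH.H674 (col cont Sy cont_apply)
open Vale.Agent.P181.T4 (HW rowOp mem_HW)

variable {k : ℕ}

/-- The letters as columns. -/
def kp (p : Lt k) : Fin (k + 1) → ℕ := Fin.cons p.1 p.2

lemma kp_zero (p : Lt k) : kp p 0 = p.1 := rfl

lemma kp_succ (p : Lt k) (i : Fin k) : kp p i.succ = p.2 i := rfl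

lemma kp_inj : Function.Injective (kp : Lt k → Fin (k + 1) → ℕ) := by
  rintro ⟨a, α⟩ ⟨b, β⟩ h
  have h1 : a = b := congrFun h 0
  have h2 : α = β := by
    funext i
    exact congrFun h i.succ
  rw [h1, h2]

lemma ren_der (D : Derivation ℂ (Po k) (Po k)) (D' : Derivation ℂ (LR (k + 1)) (LR (k + 1)))
    (h : ∀ p, D' (X (kp p)) = rename kp (D (X p))) (F : Po k) :
    D' (rename kp F) = rename kp (D F) := by
  induction F using MvPolynomial.induction_on with
  | C r =>
    rw [rename_C, ← algebraMap_eq, ← algebraMap_eq, Derivation.map_algebraMap,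
      Derivation.map_algebraMap, map_zero]
  | add p q hp hq => rw [map_add, map_add, map_add, map_add, hp, hq]
  | mul_X f p hp =>
    rw [map_mul, rename_X, Derivation.leibniz, Derivation.leibniz, map_add, smul_eq_mul,
      smul_eq_mul, smul_eq_mul, smul_eq_mul, map_mul, map_mul, rename_X, hp, h]

lemma ren_E1 (i : Fin k) (F : Po k) : E 0 i.succ (rename kp F) = rename kp (E1 i F) := by
  apply ren_der
  intro p
  rw [E, lop_X, E1_X, map_smul, rename_X, kp_succ]
  congr 2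
  funext j
  refine Fin.cases ?_ (fun j => ?_) j
  · simp [mv, kp, Pi.single_apply]
  · simp [mv, kp, Pi.single_apply]

lemma ren_EU (r i : Fin k) (F : Po k) :
    E r.succ i.succ (rename kp F) = rename kp (EU r i F) := by
  apply ren_der
  intro p
  rw [E, lop_X, EU_X, map_smul, rename_X, kp_succ]
  congr 2
  funext j
  refine Fin.cases ?_ (fun j => ?_) j
  · simp [mv, kp, Pi.single_apply]
  · simp [mv, kp, Pi.single_apply]

/-- The empty letter. -/
def e0 : Lt k := (0, 0)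

lemma kp_e0 : kp (e0 : Lt k) = 0 := by
  funext j
  refine Fin.cases ?_ (fun j => ?_) j
  · rfl
  · rfl

lemma small_one {p : Lt k} (hp : p ≠ x1) (h : sz p ≤ 1) : p.1 = 0 := by
  by_contra h0
  have h1 : sz p = 1 := by
    simp only [sz] at h ⊢
    omega
  rcases of_sz_one h1 with h2 | ⟨j, h2⟩
  · exact hp h2
  · rw [h2] at h0
    exact h0 rfl

lemma small_xi {p : Lt k} {i : Fin k} (hp : p ≠ xi i) (h : sz p ≤ 1) : p.2 i = 0 := by
  by_contra h3
  have h4 := sz_dn p i h3
  have h5 : sz p = 1 := by omega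
  rcases of_sz_one h5 with h6 | ⟨j, h6⟩
  · rw [h6] at h3
    exact h3 rfl
  · rw [h6] at h3
    simp only [xi, Pi.single_apply] at h3
    by_cases h7 : i = j
    · rw [h7] at hp
      exact hp h6
    · rw [if_neg h7] at h3
      exact h3 rfl

lemma full0 (F : Po k) :
    lo (fun p => (p.1 : ℂ)) (fun p => (p.1 - 1, p.2)) F = D0 F + X e0 * pderiv x1 F := by
  classical
  have h1 : lo (fun p : Lt k => (p.1 : ℂ)) (fun p => (p.1 - 1, p.2)) =
      D0 + (X e0 : Po k) • (pderiv (R := ℂ) x1) := by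
    apply derivation_ext
    intro p
    rw [Derivation.add_apply, Derivation.smul_apply, smul_eq_mul, lo_X, D0_X]
    by_cases hp : p = x1
    · subst hp
      rw [pderiv_X_self, mul_one, if_pos (le_of_eq sz_x1), zero_smul, zero_add]
      simp [x1, e0]
    · rw [pderiv_X_of_ne hp, mul_zero, add_zero]
      by_cases h : sz p ≤ 1
      · rw [if_pos h, zero_smul, small_one hp h, Nat.cast_zero, zero_smul]
      · rw [if_neg h]
  rw [h1]
  rfl

lemma fulli (i : Fin k) (F : Po k) :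
    lo (fun p => (p.2 i : ℂ)) (fun p => (p.1, p.2 - Pi.single i 1)) F =
      DD i F + X e0 * pderiv (xi i) F := by
  classical
  have h1 : lo (fun p : Lt k => (p.2 i : ℂ)) (fun p => (p.1, p.2 - Pi.single i 1)) =
      DD i + (X e0 : Po k) • (pderiv (R := ℂ) (xi i)) := by
    apply derivation_ext
    intro p
    rw [Derivation.add_apply, Derivation.smul_apply, smul_eq_mul, lo_X, DD_X]
    by_cases hp : p = xi i
    · subst hp
      rw [pderiv_X_self, mul_one, if_pos (le_of_eq (sz_xi i)), zero_smul, zero_add]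
      simp [xi, e0]
    · rw [pderiv_X_of_ne hp, mul_zero, add_zero]
      by_cases h : sz p ≤ 1
      · rw [if_pos h, zero_smul, small_xi hp h, Nat.cast_zero, zero_smul]
      · rw [if_neg h]
  rw [h1]
  rfl

lemma ren_D0 (F : Po k) (hF : D0 F = 0) :
    Dl 0 (rename kp F) = X 0 * rename kp (pderiv x1 F) := by
  rw [ren_der (lo (fun p => (p.1 : ℂ)) (fun p => (p.1 - 1, p.2)))]
  · rw [full0, hF, zero_add, map_mul, rename_X, kp_e0]
  · intro p
    rw [Dl, lop_X, lo_X, map_smul, rename_X, kp_zero]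
    congr 2
    funext j
    refine Fin.cases ?_ (fun j => ?_) j
    · simp [dw, kp]
    · simp [dw, kp, Pi.single_apply]

lemma ren_DD (i : Fin k) (F : Po k) (hF : DD i F = 0) :
    Dl i.succ (rename kp F) = X 0 * rename kp (pderiv (xi i) F) := by
  rw [ren_der (lo (fun p => (p.2 i : ℂ)) (fun p => (p.1, p.2 - Pi.single i 1)))]
  · rw [fulli, hF, zero_add, map_mul, rename_X, kp_e0]
  · intro p
    rw [Dl, lop_X, lo_X, map_smul, rename_X, kp_succ]
    congr 2
    funext j
    refine Fin.cases ?_ (fun j => ?_) j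
    · simp [dw, kp, Pi.single_apply]
    · simp [dw, kp, Pi.single_apply]

lemma cont_sum {m : ℕ} {σ : Type} [Fintype σ] (v : Fin m × σ →₀ ℕ) (i : Fin m) :
    (cont v).sum (fun α n => n * α i) = ∑ c, v (i, c) := by
  classical
  unfold cont
  rw [← Finsupp.sum_finsetSum_index (h := fun (α : Fin m → ℕ) (n : ℕ) => n * α i)
    (fun _ => Nat.zero_mul _) (fun _ _ _ => Nat.add_mul _ _ _)]
  refine Finset.sum_congr rfl fun c _ => ?_
  rw [Finsupp.sum_single_index (h := fun (α : Fin m → ℕ) (n : ℕ) => n * α i) (Nat.zero_mul _),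
    one_mul]
  rfl

/-- The map from `F_1` to symmetric functions of the columns. -/
noncomputable def LL (k t y : ℕ) : Po k →ₗ[ℂ] MvPolynomial (Fin (k + 1) × Fin y) ℂ :=
  It (k + 1) y ∘ₗ (rename (kp : Lt k → _)).toLinearMap ∘ₗ Fk t y

lemma LL_apply (t y : ℕ) (G : Po k) : LL k t y G = It (k + 1) y (rename kp (Fk t y G)) := rfl

section

variable {V y m0 : ℕ} {tau : Fin k → ℕ} {G : Po k}

lemma KK_supp (hG : G ∈ KK V tau y m0) (hV : V + ∑ i, tau i ≤ y) :
    ∀ v, coeff v G ≠ 0 → gPP tau y m0 v ∧ ln v + ∑ i, tau i ≤ y := by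
  intro v hv
  have h1 := (hG.1.1 v hv)
  exact ⟨h1.1, le_trans (Nat.add_le_add_right h1.2 _) hV⟩

lemma KK_D0 (hG : G ∈ KK V tau y m0) : CD0 G = 0 := hG.2.1

lemma KK_D (hG : G ∈ KK V tau y m0) (i : Fin k) : CD i G = 0 := by
  have h := hG.2.2
  have h1 := (Submodule.mem_iInf _).1 h i
  exact h1

lemma supp_G' (hG : G ∈ KK V tau y m0) (hV : V + ∑ i, tau i ≤ y)
    {K : (Fin (k + 1) → ℕ) →₀ ℕ} (hK : coeff K (rename kp (Fk (∑ i, tau i) y G)) ≠ 0) :
    ∃ v : Lt k →₀ ℕ, v.mapDomain kp = K ∧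
      (∀ p ∈ v.support, 1 ≤ sz p) ∧ ln v = y ∧ xs v = m0 ∧ ∀ i, us v i = tau i := by
  obtain ⟨v, hv, h1⟩ := coeff_rename_ne_zero _ _ _ hK
  exact ⟨v, hv, supp_Fk _ _ _ _ _ (KK_supp hG hV) v h1⟩

lemma deg_G' (hG : G ∈ KK V tau y m0) (hV : V + ∑ i, tau i ≤ y) :
    Deg y (rename kp (Fk (∑ i, tau i) y G)) := by
  intro K hK
  obtain ⟨v, rfl, _, h2, _⟩ := supp_G' hG hV hK
  rw [Finsupp.sum_mapDomain_index (fun _ => rfl) (fun _ _ _ => rfl)]
  exact h2

lemma LL_mem (hG : G ∈ KK V tau y m0) (hV : V + ∑ i, tau i ≤ y) :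
    LL k (∑ i, tau i) y G ∈ EE y (k + 1) (Fin.cons m0 tau) := by
  classical
  have hd := deg_G' hG hV
  have htr := tr_Fk (∑ i, tau i) y m0 tau rfl G (KK_supp hG hV) (KK_D0 hG) (KK_D hG)
  rw [LL_apply]
  refine ⟨mem_HW.2 ⟨?_, ?_⟩, It_sy _, ?_, ?_⟩
  · intro v hv i
    obtain ⟨u, hu, _, _, h3, h4⟩ := supp_G' hG hV (coeff_It hd hv)
    rw [← cont_sum, ← hu,
      Finsupp.sum_mapDomain_index (h := fun (α : Fin (k + 1) → ℕ) (n : ℕ) => n * α i)
        (fun _ => Nat.zero_mul _) (fun _ _ _ => Nat.add_mul _ _ _)]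
    refine Fin.cases ?_ (fun i => ?_) i
    · exact h3
    · exact h4 i
  · intro s i hsi
    apply It_row hd
    revert hsi
    refine Fin.cases (fun h => absurd h (Fin.not_lt_zero s)) (fun i => ?_) i
    refine Fin.cases (fun _ => ?_) (fun s => ?_) s
    · rw [ren_E1, E1_Fk, map_zero]
      intro v hv
      obtain ⟨⟨g1, g2, g3⟩, g4⟩ := KK_supp hG hV v hv
      exact ⟨g1, g4, le_of_eq (Finset.sum_congr rfl fun i _ => g3 i)⟩
    · intro hsi
      have h1 : s < i := Fin.succ_lt_succ_iff.1 hsi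
      rw [ren_EU, EU_Fk s i (ne_of_lt h1) _ _ G (hG.1.2 s i h1), map_zero]
  · intro v hv j
    obtain ⟨u, hu, h1, _⟩ := supp_G' hG hV (coeff_It hd hv)
    have h2 : col v j ∈ (cont v).support := by
      rw [Finsupp.mem_support_iff, cont_apply, ← Nat.pos_iff_ne_zero, Finset.card_pos]
      exact ⟨j, Finset.mem_filter.2 ⟨Finset.mem_univ _, rfl⟩⟩
    rw [← hu] at h2
    have h3 := Finsupp.mapDomain_support h2
    rw [Finset.mem_image] at h3
    obtain ⟨p, hp, h4⟩ := h3
    have h5 := h1 p hp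
    have h6 : ∑ i, v (i, j) = ∑ i, col v j i := rfl
    rw [h6, ← h4, Fin.sum_univ_succ]
    exact h5
  · intro i v hv
    rw [← pD_apply]
    apply It_pD hd
    · intro K hK
      have h1 : ∃ Q : LR (k + 1), Dl i (rename kp (Fk (∑ i, tau i) y G)) = X 0 * Q := by
        refine Fin.cases ?_ (fun i => ?_) i
        · exact ⟨_, ren_D0 _ htr.1⟩
        · exact ⟨_, ren_DD i _ (htr.2 i)⟩
      obtain ⟨Q, hQ⟩ := h1
      rw [hQ, mul_comm, coeff_mul_X', if_neg]
      rw [Finsupp.mem_support_iff, not_not]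
      exact hK
    · intro c hc
      have h1 := hv c
      have h2 : ∑ i', v (i', c) = ∑ i', col v c i' := rfl
      rw [h2, hc] at h1
      simp at h1

lemma LL_inj (hG : G ∈ KK V tau y m0) (hV : V + ∑ i, tau i ≤ y)
    (h : LL k (∑ i, tau i) y G = 0) : G = 0 := by
  rw [LL_apply] at h
  have h1 := It_inj (deg_G' hG hV) h
  have h2 : Fk (∑ i, tau i) y G = 0 := by
    apply rename_injective kp kp_inj
    rw [h1, map_zero]
  have h3 := sp_Fk (∑ i, tau i) y G fun v hv => (KK_supp hG hV v hv).1.1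
  rw [← h3, h2, map_zero]

end

theorem q2 : Q2 := by
  intro k V y m0 tau hV
  have : FiniteDimensional ℂ (EE y (k + 1) (Fin.cons m0 tau)) :=
    Submodule.finiteDimensional_of_le (S₂ := HW (k + 1) (Fin y) (Fin.cons m0 tau)) fun _ h => h.1
  let f : KK V tau y m0 →ₗ[ℂ] EE y (k + 1) (Fin.cons m0 tau) :=
    LinearMap.codRestrict _ ((LL k (∑ i, tau i) y).domRestrict (KK V tau y m0))
      fun G => LL_mem G.2 hV
  apply LinearMap.finrank_le_finrank_of_injective (f := f)
  rw [injective_iff_map_eq_zero]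
  intro G hG
  have h1 : LL k (∑ i, tau i) y G.1 = 0 := congrArg Subtype.val hG
  exact Subtype.ext (LL_inj G.2 hV h1)

end Vale.Agent.P181.GN.H674
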