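import Vale.Agent.P181.GN.H856.All
import Vale.Agent.P181.GN.H242.Q1
import Vale.Agent.P181.GN.H674.Q2
import Vale.Agent.P181.GN.H180.Q3
import Vale.Agent.P181.GN.H283.Q5
import Vale.Agent.P181.GN.H317.Q6a
import Vale.Agent.P181.GN.H481.Q6b
import Vale.Agent.P181.GN.H89.Fin

set_option autoImplicit false

/-!
# P181, line GN is closed: the core, no hypothesis
-/

namespace Vale.Agent.P181.GN.H674

theorem q6 : Q6 := H317.q6_of H317.q6a (H481.q6b H820.fd (H787.q8m H820.fd))

theorem coreClosed : Core := H856.core_of H242.q1 q2 H180.q3 H283.q5 q6 H89.q7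

end Vale.Agent.P181.GN.H674
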