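import Vale.Agent.P181.GN.H674.Ops

set_option autoImplicit false

/-!
# P181, GN, Q2: a polynomial killed by the raising operators is determined by its value at `e_1`
-/

open MvPolynomial

namespace Vale.Agent.P181.GN.H674

variable {k : ℕ}

/-- The value at `xi = e_1`. -/
noncomputable def sp : Po k →ₐ[ℂ] Po k :=
  aeval fun p => if sz p = 1 then (if p.1 = 1 then 1 else 0) else X p

lemma sp_X (p : Lt k) : sp (X p : Po k) =
    if sz p = 1 then (if p.1 = 1 then 1 else 0) else X p := aeval_X _ _

/-- The size-one letters. -/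
lemma of_sz_one {p : Lt k} (h : sz p = 1) : p = x1 ∨ ∃ i, p = xi i := by
  classical
  obtain ⟨j, α⟩ := p
  simp only [sz] at h
  rcases Nat.eq_zero_or_pos j with hj | hj
  · right
    subst hj
    rw [zero_add] at h
    obtain ⟨i, hi⟩ : ∃ i, α i ≠ 0 := by
      by_contra h1
      push Not at h1
      rw [Finset.sum_eq_zero fun i _ => h1 i] at h
      exact zero_ne_one h
    refine ⟨i, ?_⟩
    have h2 : ∀ l, l ≠ i → α l = 0 := by
      intro l hl
      have h3 := Finset.add_sum_erase Finset.univ α (Finset.mem_univ i)
      have h4 : α l ≤ ∑ x ∈ Finset.univ.erase i, α x :=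
        Finset.single_le_sum (fun _ _ => Nat.zero_le _) (Finset.mem_erase.2 ⟨hl, Finset.mem_univ _⟩)
      omega
    have h5 : α i = 1 := by
      have h3 := Finset.add_sum_erase Finset.univ α (Finset.mem_univ i)
      omega
    have h6 : α = Pi.single i 1 := by
      funext l
      by_cases hl : l = i
      · subst hl
        rw [h5, Pi.single_eq_same]
      · rw [h2 l hl, Pi.single_eq_of_ne hl]
    rw [h6]
    rfl
  · left
    have h1 : ∑ i, α i = 0 := by omega
    have h2 : α = 0 := by
      funext l
      exact (Finset.sum_eq_zero_iff.1 h1) l (Finset.mem_univ l)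
    have h3 : j = 1 := by omega
    rw [h2, h3]
    rfl

lemma xi_ne_x1 (i : Fin k) : xi i ≠ x1 := by
  intro h
  have h1 := congrArg Prod.fst h
  simp [xi, x1] at h1

lemma sp_xi (i : Fin k) : sp (X (xi i) : Po k) = 0 := by
  rw [sp_X, if_pos (sz_xi i), if_neg]
  simp [xi]

lemma sp_x1 : sp (X x1 : Po k) = 1 := by
  rw [sp_X, if_pos sz_x1]
  exact if_pos rfl

lemma sp_mono_of {v : Lt k →₀ ℕ} (hv : ∀ p ∈ v.support, sz p ≠ 1) (r : ℂ) :
    sp (monomial v r : Po k) = monomial v r := by
  rw [monomial_eq, map_mul, Finsupp.prod, map_prod]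
  congr 1
  · exact sp.commutes r
  · refine Finset.prod_congr rfl fun p hp => ?_
    rw [map_pow, sp_X, if_neg (hv p hp)]

lemma sp_mono_zero {v : Lt k →₀ ℕ} {i : Fin k} (hv : v (xi i) ≠ 0) (r : ℂ) :
    sp (monomial v r : Po k) = 0 := by
  rw [monomial_eq, map_mul, Finsupp.prod, map_prod]
  rw [Finset.prod_eq_zero (Finsupp.mem_support_iff.2 hv), mul_zero]
  rw [map_pow, sp_xi, zero_pow hv]

lemma sp_mono_x1 {v : Lt k →₀ ℕ} (hv : ∀ i, v (xi i) = 0) (r : ℂ) :
    sp (monomial v r : Po k) = monomial (v.erase x1) r := by
  classical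
  have h1 : (monomial v r : Po k) = X x1 ^ (v x1) * monomial (v.erase x1) r := by
    rw [X_pow_eq_monomial, monomial_mul, one_mul, Finsupp.single_add_erase]
  rw [h1, map_mul, map_pow, sp_x1, one_pow, one_mul]
  apply sp_mono_of
  intro p hp hp1
  rw [Finsupp.support_erase, Finset.mem_erase, Finsupp.mem_support_iff] at hp
  rcases of_sz_one hp1 with h | ⟨i, h⟩
  · exact hp.1 h
  · exact hp.2 (h ▸ hv i)

lemma sp_C (r : ℂ) : sp (C r : Po k) = C r := sp.commutes r

lemma sp_D0 (G : Po k) : sp (D0 G) = CD0 (sp G) := by
  induction G using MvPolynomial.induction_on with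
  | C r => rw [sp_C, ← algebraMap_eq, Derivation.map_algebraMap, Derivation.map_algebraMap, map_zero]
  | add p q hp hq => rw [map_add, map_add, map_add, map_add, hp, hq]
  | mul_X f p hp =>
    rw [Derivation.leibniz, map_add, smul_eq_mul, smul_eq_mul, map_mul, map_mul, map_mul,
      Derivation.leibniz, smul_eq_mul, smul_eq_mul, hp]
    congr 2
    rw [D0_X, map_smul, sp_X, sp_X]
    by_cases h0 : sz p ≤ 1
    · rw [if_pos h0, zero_smul]
      by_cases h1 : sz p = 1
      · rw [if_pos h1]
        split_ifs
        · rw [Derivation.map_one_eq_zero]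
        · rw [map_zero]
      · rw [if_neg h1, CD0, mkDerivation_X, if_neg (by omega)]
        have h2 : p.1 = 0 := by
          simp only [sz] at h0 h1
          omega
        rw [h2, Nat.cast_zero, zero_smul]
    · rw [if_neg h0, if_neg (by omega : ¬ sz p = 1), CD0, mkDerivation_X]
      by_cases hp0 : p.1 = 0
      · rw [hp0]
        simp
      · have h3 : sz (p.1 - 1, p.2) + 1 = sz p := by
          simp only [sz]
          omega
        by_cases h2 : sz p = 2
        · rw [if_pos h2, if_pos (by omega)]
          by_cases h4 : p.1 = 2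
          · rw [if_pos h4, if_pos (by rw [h4]), h4]
            rw [← algebraMap_smul ℂ, Algebra.smul_def, mul_one]
            rfl
          · rw [if_neg h4, if_neg (by omega), smul_zero]
        · rw [if_neg h2, if_neg (by omega)]

lemma sp_DD (i : Fin k) (G : Po k) : sp (DD i G) = CD i (sp G) := by
  induction G using MvPolynomial.induction_on with
  | C r => rw [sp_C, ← algebraMap_eq, Derivation.map_algebraMap, Derivation.map_algebraMap, map_zero]
  | add p q hp hq => rw [map_add, map_add, map_add, map_add, hp, hq]
  | mul_X f p hp =>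
    rw [Derivation.leibniz, map_add, smul_eq_mul, smul_eq_mul, map_mul, map_mul, map_mul,
      Derivation.leibniz, smul_eq_mul, smul_eq_mul, hp]
    congr 2
    rw [DD_X, map_smul, sp_X, sp_X]
    by_cases h0 : sz p ≤ 1
    · rw [if_pos h0, zero_smul]
      by_cases h1 : sz p = 1
      · rw [if_pos h1]
        split_ifs
        · rw [Derivation.map_one_eq_zero]
        · rw [map_zero]
      · rw [if_neg h1, CD, mkDerivation_X, if_neg (by omega)]
        have h2 : p.2 i = 0 := by
          simp only [sz] at h0 h1
          have h3 : ∑ j, p.2 j = 0 := by omega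
          exact (Finset.sum_eq_zero_iff.1 h3) i (Finset.mem_univ i)
        rw [h2, Nat.cast_zero, zero_smul]
    · rw [if_neg h0, if_neg (by omega : ¬ sz p = 1), CD, mkDerivation_X]
      by_cases hp0 : p.2 i = 0
      · rw [hp0]
        simp
      · have h3 := sz_dn p i hp0
        by_cases h2 : sz p = 2
        · rw [if_pos h2, if_pos (by omega)]
          by_cases h4 : p.1 = 1
          · have h5 : p.2 i = 1 := by
              simp only [sz] at h2
              have h6 : p.2 i ≤ ∑ x, p.2 x :=
                Finset.single_le_sum (fun _ _ => Nat.zero_le _) (Finset.mem_univ i)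
              omega
            rw [if_pos h4, if_pos ⟨h4, h5⟩, h5, Nat.cast_one, one_smul]
          · rw [if_neg h4, if_neg (fun h => h4 h.1), smul_zero]
        · rw [if_neg h2, if_neg (by omega)]

lemma E1_DD (c i : Fin k) (G : Po k) : E1 c (DD i G) = DD i (E1 c G) := by
  have h := com_ext (D := E1 c) (D' := DD i) (F := 0) (fun p => ?_) G
  · rw [h]
    simp
  · rw [Derivation.zero_apply, sub_eq_zero, E1_X, DD_X, Derivation.map_smul, Derivation.map_smul,
      DD_X, E1_X, smul_smul, smul_smul]
    by_cases hc : p.2 c = 0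
    · have h1 : ((p.2 - Pi.single i 1 : Fin k → ℕ) c) = 0 := by
        rw [Pi.sub_apply, hc, Nat.zero_sub]
      dsimp only
      rw [h1, hc]
      simp
    · rw [sz_up p c hc]
      by_cases hp : sz p ≤ 1
      · simp [hp]
      · rw [if_neg hp, if_neg hp]
        by_cases hic : i = c
        · subst hic
          rfl
        · have hci : ¬ c = i := fun h => hic h.symm
          simp only [Pi.sub_apply, Pi.single_apply, if_neg hic, if_neg hci, tsub_zero]
          rw [mul_comm, tsub_right_comm]

lemma E1_D0 (c : Fin k) (G : Po k) : E1 c (D0 G) = D0 (E1 c G) + (- DD c) G := by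
  refine com_ext (D := E1 c) (D' := D0) (F := - DD c) (fun p => ?_) G
  rw [Derivation.neg_apply, E1_X, DD_X, D0_X, Derivation.map_smul, Derivation.map_smul,
    D0_X, E1_X, smul_smul, smul_smul]
  by_cases hc : p.2 c = 0
  · rw [hc]
    simp
  · rw [sz_up p c hc]
    by_cases hp : sz p ≤ 1
    · simp [hp]
    · rw [if_neg hp, if_neg hp, if_neg hp]
      have h1 : (p.1 + 1 - 1, p.2 - Pi.single c 1) = (p.1, p.2 - Pi.single c 1) := by
        rw [Nat.add_sub_cancel]
      dsimp only
      rw [h1]
      by_cases h0 : p.1 = 0
      · rw [h0]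
        simp
      · have h2 : p.1 - 1 + 1 = p.1 := by omega
        rw [h2, ← sub_smul, ← neg_smul]
        congr 1
        push_cast
        ring

/-- `E_1i` is `xi_1 ∂/∂xi_i` plus the part on the letters of size at least two. -/
lemma E1_split (i : Fin k) (G : Po k) : E1 i G = X x1 * pderiv (xi i) G + TE i G := by
  classical
  have h1 : E1 i = (X x1 : Po k) • (pderiv (R := ℂ) (xi i)) + TE i := by
    apply derivation_ext
    intro p
    rw [Derivation.add_apply, Derivation.smul_apply, smul_eq_mul, E1_X, TE_X]
    by_cases hp : p = xi i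
    · subst hp
      rw [pderiv_X_self, mul_one, if_pos (le_of_eq (sz_xi i)), zero_smul, add_zero]
      simp [xi, x1]
    · rw [pderiv_X_of_ne hp, mul_zero, zero_add]
      by_cases h : sz p ≤ 1
      · rw [if_pos h, zero_smul]
        have h2 : p.2 i = 0 := by
          by_contra h3
          have h4 := sz_dn p i h3
          have h5 : sz p = 1 := by omega
          rcases of_sz_one h5 with h6 | ⟨j, h6⟩
          · rw [h6] at h3
            exact h3 rfl
          · rw [h6] at h3
            simp only [xi, Pi.single_apply] at h3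
            by_cases h7 : i = j
            · rw [h7] at hp
              exact hp h6
            · rw [if_neg h7] at h3
              exact h3 rfl
        rw [h2, Nat.cast_zero, zero_smul]
      · rw [if_neg h]
  have h2 : E1 i G = ((X x1 : Po k) • (pderiv (R := ℂ) (xi i)) + TE i) G := by rw [← h1]
  rw [h2]
  rfl

/-- The number of the letters `xi_i`. -/
def cx (v : Lt k →₀ ℕ) : ℕ := ∑ i, v (xi i)

lemma xi_inj {i j : Fin k} (h : xi i = xi j) : i = j := by
  by_contra hij
  have h1 := congrArg Prod.snd h
  simp only [xi] at h1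
  have h2 := congrFun h1 i
  rw [Pi.single_eq_same, Pi.single_eq_of_ne hij] at h2
  exact one_ne_zero h2

/-- `TE` does not change the number of the letters `xi`. -/
lemma TE_cx (i : Fin k) (G : Po k) (v : Lt k →₀ ℕ) (h : coeff v (TE i G) ≠ 0) :
    ∃ u, coeff u G ≠ 0 ∧ cx u = cx v := by
  classical
  obtain ⟨u, p, hu, hp, hq, h1⟩ := lo_supp _ _ _ _ h
  refine ⟨u, hu, ?_⟩
  unfold cx
  refine Finset.sum_congr rfl fun j _ => ?_
  have h2 := congrArg (fun f => f (xi j)) h1
  simp only [Finsupp.add_apply] at h2
  have h3 : Finsupp.single p 1 (xi j) = 0 := by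
    apply Finsupp.single_eq_of_ne
    intro h4
    apply hq
    rw [← h4, if_pos (le_of_eq (sz_xi j))]
  have h4 : (Finsupp.single (p.1 + 1, p.2 - Pi.single i 1) 1 : Lt k →₀ ℕ) (xi j) = 0 := by
    apply Finsupp.single_eq_of_ne
    intro h4
    have h5 := congrArg Prod.fst h4
    simp [xi] at h5
  rw [h3, h4] at h2
  omega

/-- **The determination lemma.** -/
lemma det_zero {y : ℕ} (G : Po k) (hy : ∀ v, coeff v G ≠ 0 → ln v = y)
    (hE : ∀ i, E1 i G = 0) (hs : sp G = 0) : G = 0 := by
  classical
  by_contra h0
  have h1 : G.support.Nonempty := by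
    rw [Finset.nonempty_iff_ne_empty]
    intro h
    exact h0 (support_eq_empty.1 h)
  obtain ⟨v, hv, hmin⟩ := Finset.exists_min_image G.support cx h1
  have hv' := mem_support_iff.1 hv
  by_cases hc : ∀ i, v (xi i) = 0
  · have h2 : coeff (v.erase x1) (sp G) = coeff v G := by
      conv_lhs => rw [← support_sum_monomial_coeff G]
      rw [map_sum, coeff_sum, Finset.sum_eq_single v]
      · rw [sp_mono_x1 hc, coeff_monomial, if_pos rfl]
      · intro u hu huv
        by_cases hu' : ∀ i, u (xi i) = 0
        · rw [sp_mono_x1 hu', coeff_monomial, if_neg]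
          intro h3
          apply huv
          have h4 : ∀ w : Lt k →₀ ℕ, ln w = w x1 + ln (w.erase x1) := by
            intro w
            unfold ln
            conv_lhs => rw [← Finsupp.single_add_erase x1 w]
            rw [Finsupp.sum_add_index' (fun _ => rfl) (fun _ _ _ => rfl),
              Finsupp.sum_single_index rfl]
          have h5 := hy u (mem_support_iff.1 hu)
          have h6 := hy v hv'
          rw [h4, h3] at h5
          rw [h4] at h6
          have h7 : u x1 = v x1 := by omega
          rw [← Finsupp.single_add_erase x1 u, ← Finsupp.single_add_erase x1 v, h3, h7]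
        · push Not at hu'
          obtain ⟨i, hi⟩ := hu'
          rw [sp_mono_zero hi, coeff_zero]
      · intro h
        exact absurd hv h
    rw [hs, coeff_zero] at h2
    exact hv' h2.symm
  · push Not at hc
    obtain ⟨i, hi⟩ := hc
    have h2 := hE i
    rw [E1_split] at h2
    have h3 : TE i G = - (X x1 * pderiv (xi i) G) := by
      rw [← sub_zero (TE i G), ← h2]
      ring
    have h4 : coeff (v - Finsupp.single (xi i) 1 + Finsupp.single x1 1)
        (X x1 * pderiv (xi i) G) ≠ 0 := by
      rw [mul_comm, coeff_mul_X]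
      have h5 : coeff (v - Finsupp.single (xi i) 1) (pderiv (xi i) G) =
          coeff v G * (v (xi i) : ℂ) := by
        have h7 : Finsupp.single (xi i) 1 ≤ v := by
          rw [Finsupp.single_le_iff]
          exact Nat.one_le_iff_ne_zero.2 hi
        conv_lhs => rw [← support_sum_monomial_coeff G]
        rw [map_sum, coeff_sum, Finset.sum_eq_single v]
        · rw [pderiv_monomial, coeff_monomial, if_pos rfl]
        · intro u hu huv
          rw [pderiv_monomial, coeff_monomial]
          by_cases h8 : u (xi i) = 0
          · rw [h8, Nat.cast_zero, mul_zero, ite_self]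
          · rw [if_neg]
            intro h9
            apply huv
            have h10 : Finsupp.single (xi i) 1 ≤ u := by
              rw [Finsupp.single_le_iff]
              exact Nat.one_le_iff_ne_zero.2 h8
            rw [← tsub_add_cancel_of_le h10, h9, tsub_add_cancel_of_le h7]
        · intro h
          exact absurd hv h
      rw [h5]
      exact mul_ne_zero hv' (Nat.cast_ne_zero.2 hi)
    have h5 : coeff (v - Finsupp.single (xi i) 1 + Finsupp.single x1 1) (TE i G) ≠ 0 := by
      rw [h3, coeff_neg]
      exact neg_ne_zero.2 h4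
    obtain ⟨u, hu, h6⟩ := TE_cx i G _ h5
    have h7 := hmin u (mem_support_iff.2 hu)
    rw [h6] at h7
    have h8 : cx (v - Finsupp.single (xi i) 1 + Finsupp.single x1 1) < cx v := by
      unfold cx
      apply Finset.sum_lt_sum
      · intro j _
        rw [Finsupp.add_apply, Finsupp.tsub_apply,
          Finsupp.single_eq_of_ne (xi_ne_x1 j)]
        omega
      · refine ⟨i, Finset.mem_univ _, ?_⟩
        rw [Finsupp.add_apply, Finsupp.tsub_apply,
          Finsupp.single_eq_of_ne (xi_ne_x1 i), Finsupp.single_eq_same]
        omega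
    omega

end Vale.Agent.P181.GN.H674
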