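import Vale.Agent.P181.DH.H674.Star

set_option autoImplicit false

/-!
# P181, GN, Q2: the bridge between symmetric functions of columns and polynomials in letters
-/

open MvPolynomial

namespace Vale.Agent.P181.GN.H674

open Vale.Agent.P181.SZR5 (ren rowOp_ren)
open Vale.Agent.P181.DH.H674 (Th col cont Sy Th_monomial Th_ren Th_inj coeff_Th_ne pinj ren_ren
  cont_apply)
open Vale.Agent.P181.T4 (HW rowOp rowOp_apply mem_HW)

variable {m : ℕ} {σ : Type}

/-- Polynomials in the letters. -/
abbrev LR (m : ℕ) := MvPolynomial (Fin m → ℕ) ℂ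

/-- The derivation of the letter ring given by an operation on letters. -/
noncomputable def lop (q : (Fin m → ℕ) → ℂ) (φ : (Fin m → ℕ) → (Fin m → ℕ)) :
    Derivation ℂ (LR m) (LR m) :=
  mkDerivation ℂ fun α => q α • X (φ α)

lemma lop_X (q : (Fin m → ℕ) → ℂ) (φ : (Fin m → ℕ) → (Fin m → ℕ)) (α : Fin m → ℕ) :
    lop q φ (X α) = q α • X (φ α) := mkDerivation_X _ _ _

lemma der_prod {ι : Type} [DecidableEq ι] (D : Derivation ℂ (LR m) (LR m)) (S : Finset ι)
    (g : ι → LR m) : D (∏ c ∈ S, g c) = ∑ c ∈ S, D (g c) * ∏ c' ∈ S.erase c, g c' := by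
  induction S using Finset.induction_on with
  | empty => rw [Finset.prod_empty, Finset.sum_empty, Derivation.map_one_eq_zero]
  | insert a S ha ih =>
    rw [Finset.prod_insert ha, Finset.sum_insert ha, Derivation.leibniz, ih,
      Finset.erase_insert ha, smul_eq_mul, smul_eq_mul, add_comm, mul_comm _ (D (g a)),
      Finset.mul_sum]
    congr 1
    refine Finset.sum_congr rfl fun c hc => ?_
    have h : c ≠ a := fun h => ha (h ▸ hc)
    rw [Finset.erase_insert_of_ne h.symm, Finset.prod_insert (fun h' => ha (Finset.mem_of_mem_erase h'))]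
    ring

lemma mono_cont [Fintype σ] (v : Fin m × σ →₀ ℕ) :
    (monomial (cont v) 1 : LR m) = ∏ c : σ, X (col v c) := by
  unfold cont
  rw [monomial_sum_one]
  rfl

lemma lop_cont [Fintype σ] [DecidableEq σ] (q : (Fin m → ℕ) → ℂ)
    (φ : (Fin m → ℕ) → (Fin m → ℕ)) (v : Fin m × σ →₀ ℕ) (u : σ → Fin m × σ →₀ ℕ)
    (hu : ∀ c c', col (u c) c' = if c' = c then φ (col v c) else col v c') :
    lop q φ (monomial (cont v) 1) = ∑ c, monomial (cont (u c)) (q (col v c)) := by
  rw [mono_cont, der_prod]
  refine Finset.sum_congr rfl fun c _ => ?_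
  have h1 : (monomial (cont (u c)) (q (col v c)) : LR m) =
      q (col v c) • ∏ c' : σ, X (col (u c) c') := by
    rw [← mono_cont, smul_monomial, smul_eq_mul, mul_one]
  rw [h1, lop_X, smul_mul_assoc, ← Finset.mul_prod_erase _ _ (Finset.mem_univ c), hu c c,
    if_pos rfl]
  congr 2
  refine Finset.prod_congr rfl fun c' hc' => ?_
  rw [hu c c', if_neg (Finset.ne_of_mem_erase hc')]

/-- A linear map on column polynomials which acts column by column. -/
lemma Th_op [Fintype σ] [DecidableEq σ] (q : (Fin m → ℕ) → ℂ)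
    (φ : (Fin m → ℕ) → (Fin m → ℕ))
    (T : MvPolynomial (Fin m × σ) ℂ →ₗ[ℂ] MvPolynomial (Fin m × σ) ℂ)
    (u : (Fin m × σ →₀ ℕ) → σ → Fin m × σ →₀ ℕ)
    (hT : ∀ v, T (monomial v 1) = ∑ c, monomial (u v c) (q (col v c)))
    (hu : ∀ v c c', col (u v c) c' = if c' = c then φ (col v c) else col v c')
    (f : MvPolynomial (Fin m × σ) ℂ) : Th m σ (T f) = lop q φ (Th m σ f) := by
  induction f using MvPolynomial.induction_on' with
  | monomial v r =>
    have h1 : (monomial v r : MvPolynomial (Fin m × σ) ℂ) = r • monomial v 1 := by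
      rw [smul_monomial, smul_eq_mul, mul_one]
    rw [h1, map_smul, map_smul, map_smul, Derivation.map_smul, hT, map_sum, Th_monomial,
      lop_cont q φ v (u v) (hu v)]
    congr 1
    exact Finset.sum_congr rfl fun c _ => Th_monomial _ _
  | add p q hp hq => rw [map_add, map_add, map_add, map_add, hp, hq]

/-- Replace one cell of row `i` by a cell of row `s`. -/
def mv (s i : Fin m) (α : Fin m → ℕ) : Fin m → ℕ := α - Pi.single i 1 + Pi.single s 1

/-- Remove one cell of row `i`. -/
def dw (i : Fin m) (α : Fin m → ℕ) : Fin m → ℕ := α - Pi.single i 1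

/-- The row operator on letters. -/
noncomputable def E (s i : Fin m) : Derivation ℂ (LR m) (LR m) := lop (fun α => (α i : ℂ)) (mv s i)

/-- The translation on letters. -/
noncomputable def Dl (i : Fin m) : Derivation ℂ (LR m) (LR m) := lop (fun α => (α i : ℂ)) (dw i)

lemma Th_row [Fintype σ] (s i : Fin m) (f : MvPolynomial (Fin m × σ) ℂ) :
    Th m σ (rowOp s i f) = E s i (Th m σ f) := by
  classical
  refine Th_op _ _ (rowOp s i) (fun v c => v - Finsupp.single (i, c) 1 + Finsupp.single (s, c) 1)
    (fun v => ?_) (fun v c c' => ?_) f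
  · rw [rowOp_apply]
    refine Finset.sum_congr rfl fun c _ => ?_
    rw [pderiv_monomial, X, monomial_mul, one_mul, one_mul, add_comm]
    rfl
  · funext k
    simp only [col, Finsupp.add_apply, Finsupp.tsub_apply, mv, Pi.add_apply, Pi.sub_apply,
      Finsupp.single_apply, Prod.mk.injEq]
    by_cases h : c' = c
    · subst h
      simp [mv, col, Pi.single_apply, eq_comm]
    · have h' : ¬ c = c' := fun h' => h h'.symm
      simp [h, h', col]

/-- The sum of the derivatives in one row. -/
noncomputable def pD [Fintype σ] (i : Fin m) :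
    MvPolynomial (Fin m × σ) ℂ →ₗ[ℂ] MvPolynomial (Fin m × σ) ℂ :=
  ∑ c : σ, (pderiv (R := ℂ) (i, c)).toLinearMap

lemma pD_apply [Fintype σ] (i : Fin m) (f : MvPolynomial (Fin m × σ) ℂ) :
    pD i f = ∑ c : σ, pderiv (i, c) f := by
  simp only [pD, LinearMap.sum_apply]
  rfl

lemma Th_pD [Fintype σ] (i : Fin m) (f : MvPolynomial (Fin m × σ) ℂ) :
    Th m σ (pD i f) = Dl i (Th m σ f) := by
  classical
  refine Th_op _ _ (pD i) (fun v c => v - Finsupp.single (i, c) 1)
    (fun v => ?_) (fun v c c' => ?_) f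
  · rw [pD_apply]
    refine Finset.sum_congr rfl fun c _ => ?_
    rw [pderiv_monomial, one_mul]
    rfl
  · funext k
    simp only [col, Finsupp.tsub_apply, Finsupp.single_apply, Prod.mk.injEq]
    by_cases h : c' = c
    · subst h
      simp [dw, col, Pi.single_apply, eq_comm]
    · have h' : ¬ c = c' := fun h' => h h'.symm
      simp [h, h', col]

/-- Every content with `y` letters occurs. -/
lemma exists_cont {y : ℕ} (K : (Fin m → ℕ) →₀ ℕ) (hK : K.sum (fun _ n => n) = y) :
    ∃ v : Fin m × Fin y →₀ ℕ, cont v = K := by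
  classical
  have h1 : K.toMultiset.toList.length = y := by
    rw [Multiset.length_toList, Finsupp.card_toMultiset]
    exact hK
  let l : Fin y → (Fin m → ℕ) := fun c => K.toMultiset.toList.get (Fin.cast h1.symm c)
  refine ⟨Finsupp.equivFunOnFinite.symm fun p => l p.2 p.1, ?_⟩
  have h2 : ∀ c, col (Finsupp.equivFunOnFinite.symm fun p : Fin m × Fin y => l p.2 p.1) c = l c :=
    fun c => rfl
  unfold cont
  rw [Finset.sum_congr rfl fun c _ => by rw [h2 c]]
  have h3 : ∑ c : Fin y, Finsupp.single (l c) 1 =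
      Multiset.toFinsupp (Multiset.map l Finset.univ.val) := by
    rw [Finset.sum, ← Multiset.sum_map_singleton (Multiset.map l Finset.univ.val),
      Multiset.map_map, map_multiset_sum, Multiset.map_map]
    congr 1
    refine Multiset.map_congr rfl fun c _ => ?_
    simp
  rw [h3]
  have h4 : Multiset.map l (Finset.univ : Finset (Fin y)).val = K.toMultiset := by
    have h5 : Multiset.map l (Finset.univ : Finset (Fin y)).val =
        ((List.ofFn l : List (Fin m → ℕ)) : Multiset (Fin m → ℕ)) := by
      rw [List.ofFn_eq_map]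
      rfl
    rw [h5]
    have h6 : List.ofFn l = K.toMultiset.toList := by
      apply List.ext_get
      · rw [List.length_ofFn, h1]
      · intro n h7 h8
        simp [l]
    rw [h6, Multiset.coe_toList]
  rw [h4]
  exact Finsupp.toMultiset_toFinsupp K

open Classical in
/-- From letters to symmetric functions of `y` columns. -/
noncomputable def It (m y : ℕ) : LR m →ₗ[ℂ] MvPolynomial (Fin m × Fin y) ℂ :=
  (basisMonomials (Fin m → ℕ) ℂ).constr ℂ fun K =>
    if h : ∃ v : Fin m × Fin y →₀ ℕ, cont v = K then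
      ∑ s : Equiv.Perm (Fin y), ren m s (monomial h.choose 1) else 0

open Classical in
lemma It_monomial (y : ℕ) (K : (Fin m → ℕ) →₀ ℕ) (r : ℂ) :
    It m y (monomial K r) = r • (if h : ∃ v : Fin m × Fin y →₀ ℕ, cont v = K then
      ∑ s : Equiv.Perm (Fin y), ren m s (monomial h.choose 1) else 0) := by
  have h : monomial K r = r • basisMonomials (Fin m → ℕ) ℂ K := by
    rw [coe_basisMonomials, smul_monomial, smul_eq_mul, mul_one]
  rw [h, map_smul, It, Module.Basis.constr_basis]

lemma It_sy {y : ℕ} (G : LR m) : Sy m (Fin y) (It m y G) := by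
  intro e
  change ren m e (It m y G) = It m y G
  induction G using MvPolynomial.induction_on' with
  | monomial K r =>
    rw [It_monomial, map_smul]
    split_ifs with h
    · rw [map_sum]
      congr 1
      refine Fintype.sum_equiv (Equiv.mulLeft e) _ _ fun s => ?_
      rw [ren_ren]
      rfl
    · rw [map_zero]
  | add p q hp hq => rw [map_add, map_add, hp, hq]

/-- All monomials of `G` have `y` letters. -/
def Deg (y : ℕ) (G : LR m) : Prop := ∀ K, coeff K G ≠ 0 → K.sum (fun _ n => n) = y

lemma Th_It {y : ℕ} {G : LR m} (hG : Deg y G) :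
    Th m (Fin y) (It m y G) = (y.factorial : ℂ) • G := by
  classical
  have h1 : ∀ K ∈ G.support, Th m (Fin y) (It m y (monomial K (coeff K G))) =
      (y.factorial : ℂ) • monomial K (coeff K G) := by
    intro K hK
    have h := exists_cont K (hG K (mem_support_iff.1 hK))
    rw [It_monomial, dif_pos h, map_smul, map_sum,
      Finset.sum_congr rfl fun s _ => Th_ren (s : Fin y ≃ Fin y) _, Finset.sum_const,
      Th_monomial, h.choose_spec, Finset.card_univ, Fintype.card_perm, Fintype.card_fin,
      smul_monomial, ← Nat.cast_smul_eq_nsmul ℂ, smul_monomial, smul_monomial]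
    simp only [smul_eq_mul, mul_one]
    rw [mul_comm]
  conv_lhs => rw [← support_sum_monomial_coeff G, map_sum, map_sum]
  rw [Finset.sum_congr rfl h1, ← Finset.smul_sum, support_sum_monomial_coeff]

lemma coeff_It {y : ℕ} {G : LR m} (hG : Deg y G) {v : Fin m × Fin y →₀ ℕ}
    (hv : coeff v (It m y G) ≠ 0) : coeff (cont v) G ≠ 0 := by
  have h := coeff_Th_ne (It_sy G) hv
  rw [Th_It hG, coeff_smul, smul_eq_mul] at h
  exact right_ne_zero_of_mul h

lemma It_inj {y : ℕ} {G : LR m} (hG : Deg y G) (h : It m y G = 0) : G = 0 := by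
  have h1 := Th_It hG
  rw [h, map_zero] at h1
  have h2 : (y.factorial : ℂ) ≠ 0 := by
    exact_mod_cast y.factorial_ne_zero
  exact (smul_eq_zero.1 h1.symm).resolve_left h2

lemma sy_row {y : ℕ} (s i : Fin m) {f : MvPolynomial (Fin m × Fin y) ℂ}
    (hf : Sy m (Fin y) f) : Sy m (Fin y) (rowOp s i f) := by
  intro e
  have h := rowOp_ren (e : Fin y → Fin y) s i f
  have h2 : ren m e f = f := hf e
  rw [h2] at h
  exact h.symm

lemma sy_pD {y : ℕ} (i : Fin m) {f : MvPolynomial (Fin m × Fin y) ℂ}
    (hf : Sy m (Fin y) f) : Sy m (Fin y) (pD i f) := by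
  intro e
  change ren m e (pD i f) = pD i f
  have h2 : ren m e f = f := hf e
  conv_rhs => rw [← h2]
  rw [pD_apply, pD_apply, map_sum]
  refine Fintype.sum_equiv e _ _ fun c => ?_
  exact (pderiv_rename (pinj e.injective) (i, c) f).symm

lemma It_row {y : ℕ} {G : LR m} (hG : Deg y G) {s i : Fin m} (h : E s i G = 0) :
    rowOp s i (It m y G) = 0 := by
  apply Th_inj (sy_row s i (It_sy G))
  rw [Th_row, Th_It hG, Derivation.map_smul, h, smul_zero]

/-- The total derivative of `It G` has no monomial with all columns if that of `G` is divisible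
by the empty letter. -/
lemma It_pD {y : ℕ} {G : LR m} (hG : Deg y G) {i : Fin m}
    (h : ∀ K : (Fin m → ℕ) →₀ ℕ, K 0 = 0 → coeff K (Dl i G) = 0) (v : Fin m × Fin y →₀ ℕ)
    (hv : ∀ c, col v c ≠ 0) : coeff v (pD i (It m y G)) = 0 := by
  classical
  by_contra h1
  have h2 := coeff_Th_ne (sy_pD i (It_sy G)) h1
  rw [Th_pD, Th_It hG, Derivation.map_smul, coeff_smul, smul_eq_mul] at h2
  apply right_ne_zero_of_mul h2
  apply h
  rw [cont_apply, Finset.card_eq_zero, Finset.filter_eq_empty_iff]
  exact fun c _ => hv c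

end Vale.Agent.P181.GN.H674
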