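import Vale.Agent.P181.GN.Defs

set_option autoImplicit false

/-!
# P181, GN, Q2: operators on the letter ring
-/

open MvPolynomial

namespace Vale.Agent.P181.GN.H674

variable {k : ℕ}

/-- The derivation of the letter ring given by an operation on letters. -/
noncomputable def lo (q : Lt k → ℂ) (φ : Lt k → Lt k) : Derivation ℂ (Po k) (Po k) :=
  mkDerivation ℂ fun p => q p • X (φ p)

lemma lo_X (q : Lt k → ℂ) (φ : Lt k → Lt k) (p : Lt k) : lo q φ (X p) = q p • X (φ p) :=
  mkDerivation_X _ _ _

lemma lo_supp (q : Lt k → ℂ) (φ : Lt k → Lt k) (G : Po k) (v : Lt k →₀ ℕ)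
    (h : coeff v (lo q φ G) ≠ 0) : ∃ u p, coeff u G ≠ 0 ∧ p ∈ u.support ∧ q p ≠ 0 ∧
      v + Finsupp.single p 1 = u + Finsupp.single (φ p) 1 := by
  classical
  have h1 : lo q φ G = ∑ u ∈ G.support, lo q φ (monomial u (coeff u G)) := by
    conv_lhs => rw [← support_sum_monomial_coeff G]
    rw [map_sum]
  rw [h1, coeff_sum] at h
  obtain ⟨u, hu, h2⟩ := Finset.exists_ne_zero_of_sum_ne_zero h
  rw [lo, mkDerivation_monomial, coeff_smul, Finsupp.sum, coeff_sum, smul_eq_mul] at h2
  obtain ⟨p, hp, h3⟩ := Finset.exists_ne_zero_of_sum_ne_zero (right_ne_zero_of_mul h2)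
  refine ⟨u, p, mem_support_iff.1 hu, hp, ?_, ?_⟩
  · intro h4
    apply h3
    rw [h4, zero_smul, smul_zero, coeff_zero]
  · rw [smul_eq_mul, mul_smul_comm, coeff_smul, X, monomial_mul, coeff_monomial] at h3
    have h5 : u - Finsupp.single p 1 + Finsupp.single (φ p) 1 = v := by
      by_contra h6
      apply h3
      rw [if_neg h6, smul_zero]
    have h6 : Finsupp.single p 1 ≤ u := by
      rw [Finsupp.single_le_iff]
      exact Nat.one_le_iff_ne_zero.2 (Finsupp.mem_support_iff.1 hp)
    rw [← h5, add_right_comm, tsub_add_cancel_of_le h6]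

/-- The sum of the derivations. -/
lemma dsum {ι : Type} (s : Finset ι) (D : ι → Derivation ℂ (Po k) (Po k)) (f : Po k) :
    (∑ j ∈ s, D j) f = ∑ j ∈ s, D j f := by
  have h := congrFun (map_sum (Derivation.coeFnAddMonoidHom (R := ℂ)
    (A := Po k) (M := Po k)) D s) f
  rw [Finset.sum_apply] at h
  exact h

/-- The letter `e_i` below row one. -/
def xi (i : Fin k) : Lt k := (0, Pi.single i 1)

/-- The letter `e_1`. -/
def x1 : Lt k := (1, 0)

lemma sz_xi (i : Fin k) : sz (xi i) = 1 := by
  simp [sz, xi]

lemma sz_x1 : sz (x1 : Lt k) = 1 := by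
  simp [sz, x1]

/-- The raising operators to row one on the letters of size at least two. -/
noncomputable def TE (i : Fin k) : Derivation ℂ (Po k) (Po k) :=
  lo (fun p => if sz p ≤ 1 then 0 else (p.2 i : ℂ)) (fun p => (p.1 + 1, p.2 - Pi.single i 1))

/-- The translation of row one on the letters of size at least two. -/
noncomputable def D0 : Derivation ℂ (Po k) (Po k) :=
  lo (fun p => if sz p ≤ 1 then 0 else (p.1 : ℂ)) (fun p => (p.1 - 1, p.2))

/-- The translation of row `i` on the letters of size at least two. -/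
noncomputable def DD (i : Fin k) : Derivation ℂ (Po k) (Po k) :=
  lo (fun p => if sz p ≤ 1 then 0 else (p.2 i : ℂ)) (fun p => (p.1, p.2 - Pi.single i 1))

/-- The operator `∑ xi_i E_1i`. -/
noncomputable def NN : Derivation ℂ (Po k) (Po k) := ∑ i, (X (xi i) : Po k) • TE i

lemma NN_apply (G : Po k) : NN G = ∑ i, X (xi i) * TE i G := by
  rw [NN, dsum]
  rfl

lemma TE_X (i : Fin k) (p : Lt k) : TE i (X p) =
    (if sz p ≤ 1 then 0 else (p.2 i : ℂ)) • X (p.1 + 1, p.2 - Pi.single i 1) := lo_X _ _ _

lemma D0_X (p : Lt k) : D0 (X p) =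
    (if sz p ≤ 1 then 0 else (p.1 : ℂ)) • X (p.1 - 1, p.2) := lo_X _ _ _

lemma DD_X (i : Fin k) (p : Lt k) : DD i (X p) =
    (if sz p ≤ 1 then 0 else (p.2 i : ℂ)) • X (p.1, p.2 - Pi.single i 1) := lo_X _ _ _

lemma E1_X (i : Fin k) (p : Lt k) : E1 i (X p) =
    (p.2 i : ℂ) • X (p.1 + 1, p.2 - Pi.single i 1) := lo_X _ _ _

lemma EU_X (r i : Fin k) (p : Lt k) : EU r i (X p) =
    (p.2 i : ℂ) • X (p.1, p.2 - Pi.single i 1 + Pi.single r 1) := lo_X _ _ _

lemma sum_sub (α : Fin k → ℕ) (i : Fin k) (h : α i ≠ 0) :
    ∑ j, (α - Pi.single i 1 : Fin k → ℕ) j + 1 = ∑ j, α j := by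
  classical
  have h1 : α = (α - Pi.single i 1) + Pi.single i 1 := by
    funext j
    rw [Pi.add_apply, Pi.sub_apply, Pi.single_apply]
    split_ifs with h2
    · subst h2
      omega
    · omega
  conv_rhs => rw [h1]
  simp only [Pi.add_apply, Finset.sum_add_distrib]
  simp

lemma sz_up (p : Lt k) (i : Fin k) (h : p.2 i ≠ 0) :
    sz (p.1 + 1, p.2 - Pi.single i 1) = sz p := by
  have h1 := sum_sub p.2 i h
  simp only [sz]
  omega

lemma sz_dn (p : Lt k) (i : Fin k) (h : p.2 i ≠ 0) :
    sz (p.1, p.2 - Pi.single i 1) + 1 = sz p := by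
  have h1 := sum_sub p.2 i h
  simp only [sz]
  omega

lemma sz_EU (p : Lt k) (r i : Fin k) (h : p.2 i ≠ 0) :
    sz (p.1, p.2 - Pi.single i 1 + Pi.single r 1) = sz p := by
  have h1 := sum_sub p.2 i h
  simp only [sz, Pi.add_apply, Finset.sum_add_distrib]
  simp only [Finset.sum_pi_single', Finset.mem_univ, if_true]
  omega

lemma com_ext {D D' F : Derivation ℂ (Po k) (Po k)}
    (h : ∀ p, D (D' (X p)) - D' (D (X p)) = F (X p)) (G : Po k) :
    D (D' G) = D' (D G) + F G := by
  have h1 : ⁅D, D'⁆ = F := by
    apply derivation_ext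
    intro p
    rw [Derivation.commutator_apply]
    exact h p
  have h2 : ⁅D, D'⁆ G = F G := by rw [h1]
  rw [Derivation.commutator_apply] at h2
  rw [← h2]
  ring

lemma TE_TE (i j : Fin k) (G : Po k) : TE i (TE j G) = TE j (TE i G) := by
  have h := com_ext (D := TE i) (D' := TE j) (F := 0) (fun p => ?_) G
  · rw [h]
    simp
  · rw [Derivation.zero_apply, sub_eq_zero, TE_X, TE_X, Derivation.map_smul, Derivation.map_smul,
      TE_X, TE_X, smul_smul, smul_smul]
    by_cases hp : sz p ≤ 1
    · simp [hp]
    · rw [if_neg hp, if_neg hp]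
      by_cases hij : i = j
      · subst hij
        rfl
      have hji : ¬ j = i := fun h => hij h.symm
      by_cases hi : p.2 i = 0
      · simp [hi]
      · by_cases hj : p.2 j = 0
        · simp [hj]
        · rw [if_neg (by rw [sz_up p j hj]; exact hp), if_neg (by rw [sz_up p i hi]; exact hp)]
          simp only [Pi.sub_apply, Pi.single_apply, if_neg hij, if_neg hji, tsub_zero]
          rw [mul_comm, tsub_right_comm]

lemma EU_TE (r i j : Fin k) (hri : r ≠ i) (G : Po k) :
    EU r i (TE j G) = TE j (EU r i G) + (if j = r then - TE i G else 0) := by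
  have h := com_ext (D := EU r i) (D' := TE j) (F := if j = r then - TE i else 0)
    (fun p => ?_) G
  · rw [h]
    split_ifs <;> rfl
  · rw [TE_X, EU_X, Derivation.map_smul, Derivation.map_smul, TE_X, EU_X, smul_smul, smul_smul]
    have h3 : (if j = r then - TE i else (0 : Derivation ℂ (Po k) (Po k))) (X p) =
        (if j = r then - ((if sz p ≤ 1 then 0 else (p.2 i : ℂ)) •
          (X (p.1 + 1, p.2 - Pi.single i 1) : Po k)) else 0) := by
      split_ifs with h1 h2
      · rw [Derivation.neg_apply, TE_X, if_pos h2]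
      · rw [Derivation.neg_apply, TE_X, if_neg h2]
      · rfl
    rw [h3]
    by_cases hp : sz p ≤ 1
    · rw [if_pos hp]
      by_cases hi : p.2 i = 0
      · simp [hi]
      · rw [if_pos (by rw [sz_EU p r i hi]; exact hp), if_pos hp]
        simp
    · rw [if_neg hp, if_neg hp]
      by_cases hi : p.2 i = 0
      · have h4 : ((p.2 - Pi.single j 1 : Fin k → ℕ) i) = 0 := by
          rw [Pi.sub_apply, hi, Nat.zero_sub]
        simp [hi]
      · rw [if_neg (by rw [sz_EU p r i hi]; exact hp)]
        by_cases hjr : j = r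
        · subst hjr
          rw [if_pos rfl]
          have h5 : (p.2 - Pi.single i 1 + Pi.single j 1 : Fin k → ℕ) - Pi.single j 1 =
              p.2 - Pi.single i 1 := add_tsub_cancel_right _ _
          simp only [h5]
          by_cases hj : p.2 j = 0
          · have h6 : ((p.2 - Pi.single i 1 + Pi.single j 1 : Fin k → ℕ) j) = 1 := by
              simp [hj]
            rw [h6, hj]
            simp
          · have h6 : ((p.2 - Pi.single i 1 + Pi.single j 1 : Fin k → ℕ) j) = p.2 j + 1 := by
              simp [Pi.single_apply, hri]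
            have h7 : ((p.2 - Pi.single j 1 : Fin k → ℕ) i) = p.2 i := by
              simp [Pi.single_apply, Ne.symm hri]
            have h8 : (p.2 - Pi.single j 1 - Pi.single i 1 + Pi.single j 1 : Fin k → ℕ) =
                p.2 - Pi.single i 1 := by
              funext l
              simp only [Pi.add_apply, Pi.sub_apply, Pi.single_apply]
              by_cases hl : l = j
              · subst hl
                rw [if_pos rfl, if_neg hri]
                omega
              · rw [if_neg hl]
                omega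
            rw [h6, h7, h8, ← sub_smul, ← neg_smul]
            congr 1
            push_cast
            ring
        · rw [if_neg hjr]
          by_cases hij : j = i
          · subst hij
            have h6 : ((p.2 - Pi.single j 1 + Pi.single r 1 : Fin k → ℕ) j) = p.2 j - 1 := by
              simp [Pi.single_apply, hjr]
            have h7 : ((p.2 - Pi.single j 1 : Fin k → ℕ) j) = p.2 j - 1 := by
              simp
            have h8 : (p.2 - Pi.single j 1 + Pi.single r 1 - Pi.single j 1 : Fin k → ℕ) =
                p.2 - Pi.single j 1 - Pi.single j 1 + Pi.single r 1 := by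
              funext l
              simp only [Pi.add_apply, Pi.sub_apply, Pi.single_apply]
              by_cases hl : l = j
              · subst hl
                rw [if_pos rfl, if_neg hjr]
                omega
              · rw [if_neg hl]
                omega
            dsimp only
            rw [h6, h7, h8, sub_self]
          · have hij' : ¬ i = j := fun h => hij h.symm
            have h6 : ((p.2 - Pi.single i 1 + Pi.single r 1 : Fin k → ℕ) j) = p.2 j := by
              simp [Pi.single_apply, hjr, hij]
            have h7 : ((p.2 - Pi.single j 1 : Fin k → ℕ) i) = p.2 i := by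
              simp [Pi.single_apply, hij']
            have h8 : (p.2 - Pi.single i 1 + Pi.single r 1 - Pi.single j 1 : Fin k → ℕ) =
                p.2 - Pi.single j 1 - Pi.single i 1 + Pi.single r 1 := by
              funext l
              simp only [Pi.add_apply, Pi.sub_apply, Pi.single_apply]
              by_cases hl : l = j
              · subst hl
                rw [if_pos rfl, if_neg hjr]
                omega
              · rw [if_neg hl]
                omega
            dsimp only
            rw [h6, h7, h8, mul_comm, sub_self]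

lemma TE_xi (i j : Fin k) : TE i (X (xi j)) = 0 := by
  rw [TE_X, if_pos (le_of_eq (sz_xi j)), zero_smul]

lemma TE_x1 (i : Fin k) : TE i (X x1) = 0 := by
  rw [TE_X, if_pos (le_of_eq sz_x1), zero_smul]

lemma NN_x1 : NN (X x1 : Po k) = 0 := by
  rw [NN_apply]
  exact Finset.sum_eq_zero fun i _ => by rw [TE_x1, mul_zero]

lemma EU_x1 (r i : Fin k) : EU r i (X x1) = 0 := by
  rw [EU_X]
  simp [x1]

lemma EU_xi (r i j : Fin k) : EU r i (X (xi j)) = if j = i then X (xi r) else 0 := by
  rw [EU_X]
  split_ifs with h
  · subst h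
    simp [xi]
  · have h' : ¬ i = j := fun h' => h h'.symm
    simp [xi, h']

lemma TE_NN (i : Fin k) (G : Po k) : TE i (NN G) = NN (TE i G) := by
  rw [NN_apply, NN_apply, map_sum]
  refine Finset.sum_congr rfl fun j _ => ?_
  rw [Derivation.leibniz, TE_xi, smul_zero, add_zero, smul_eq_mul, TE_TE]

lemma EU_NN (r i : Fin k) (hri : r ≠ i) (G : Po k) : EU r i (NN G) = NN (EU r i G) := by
  classical
  rw [NN_apply, NN_apply, map_sum]
  have h1 : ∀ j ∈ (Finset.univ : Finset (Fin k)), EU r i (X (xi j) * TE j G) =
      X (xi j) * TE j (EU r i G) + ((if j = r then - (X (xi j) * TE i G) else 0) +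
        (if j = i then X (xi r) * TE j G else 0)) := by
    intro j _
    rw [Derivation.leibniz, EU_TE r i j hri, EU_xi, smul_eq_mul, smul_eq_mul, mul_add]
    split_ifs <;> ring
  rw [Finset.sum_congr rfl h1, Finset.sum_add_distrib, Finset.sum_add_distrib,
    Finset.sum_ite_eq' Finset.univ r, Finset.sum_ite_eq' Finset.univ i, if_pos (Finset.mem_univ _),
    if_pos (Finset.mem_univ _)]
  ring

lemma pd_NN (i : Fin k) (G : Po k) :
    pderiv (xi i) (NN G) = NN (pderiv (xi i) G) + TE i G := by
  classical
  refine com_ext (D := pderiv (xi i)) (D' := NN) (F := TE i) (fun p => ?_) G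
  have h2 : NN (pderiv (xi i) (X p : Po k)) = 0 := by
    by_cases h : p = xi i
    · subst h
      rw [pderiv_X_self, Derivation.map_one_eq_zero]
    · rw [pderiv_X_of_ne h, map_zero]
  rw [h2, sub_zero, NN_apply, map_sum, Finset.sum_eq_single i]
  · rw [Derivation.leibniz, pderiv_X_self, smul_eq_mul, smul_eq_mul, mul_one]
    have h3 : pderiv (xi i) (TE i (X p)) = 0 := by
      rw [TE_X, Derivation.map_smul, pderiv_X_of_ne, smul_zero]
      intro h
      have h1 := congrArg Prod.fst h
      simp [xi] at h1
    rw [h3, mul_zero, zero_add]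
  · intro j _ hj
    have h3 : pderiv (xi i) (TE j (X p)) = 0 := by
      rw [TE_X, Derivation.map_smul, pderiv_X_of_ne, smul_zero]
      intro h
      have h1 := congrArg Prod.fst h
      simp [xi] at h1
    rw [Derivation.leibniz, h3, smul_zero, zero_add, pderiv_X_of_ne, smul_zero]
    intro h
    have h1 := congrArg Prod.snd h
    simp only [xi] at h1
    have h4 := congrFun h1 j
    rw [Pi.single_eq_same, Pi.single_apply, if_neg hj] at h4
    exact one_ne_zero h4
  · intro h
    exact absurd (Finset.mem_univ _) h

end Vale.Agent.P181.GN.H674
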